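import Vale.Agent.P281.H167.ML.Iface
import Vale.Agent.P281.H455.KD.BDMain
import Vale.Agent.P281.H776.KL.MixNN
import Vale.Agent.P281.H787.KLim
import Vale.Agent.P285.H16.Null

/-! P281 (helper413): row E of theorem ML, `EffPart`: the divisors have nonnegative degree. -/

open scoped Manifold ContDiff Topology ComplexOrder
open Set Filter MeasureTheory Vale.Agent.P281.J Vale.Agent.P272.K Vale.Agent.P272.K.AMP
  Vale.Agent.P299
open Vale.Agent.P272.K.INT (IsClosedForm)

set_option linter.all false

noncomputable section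

namespace Vale.Agent.P281.H413.ML

open Vale.Agent.P281.H713 Vale.Agent.P281.H713.SA Vale.Agent.P281.H713.KD Vale.Agent.P281.H716
open Vale.Agent.P281.H167.GM (mixX mixD addF)
open Vale.Agent.P281.H787 (mixD_add mixD_smul isDensity_mixD)
open Vale.Agent.P281.H455.KD (pt_a psd_vec bd_loc bd_nonneg bd_smooth dF_eq)

variable {n M : ℕ} {X : Type} [TopologicalSpace X] [ChartedSpace (Cm n) X]
  {Dv : Fin M → Set X} {r : Fin M → X → ℝ} {R : Fin M → D.FormM n X}

/-- the divisor `Dv i` is a null set -/
theorem bd_null (h : IsBd Dv r R) (i : Fin M) :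
    ∀ e ∈ atlas (Cm n) X, volume {z | z ∈ e.target ∧ r i (e.symm z) = 0} = 0 := by
  intro e he
  refine measure_null_of_locally_null _ fun z hz => ?_
  have hex : At e (e.symm z) := At.of_target he hz.1
  have hexz : e (e.symm z) = z := e.right_inv hz.1
  obtain ⟨g, ψ, hg, -, -, hli, hev⟩ := h.loc e _ hex
  rw [hexz] at hg hli hev
  have hne : ∃ᶠ y in 𝓝 z, g i y ≠ 0 := by
    by_cases h0 : g i z = 0
    · intro h1
      have h2 : g i =ᶠ[𝓝 z] fun _ => 0 := by
        filter_upwards [h1] with y hy using not_not.1 hy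
      refine hli.ne_zero ⟨i, h0⟩ ?_
      rw [h2.fderiv_eq]
      simp
    · exact ((hg i).continuousAt.eventually_ne h0).frequently
  obtain ⟨ρ, hρ, hball⟩ := Metric.eventually_nhds_iff_ball.1
    ((hg i).eventually_analyticAt.and hev)
  have hne2 : ∃ y ∈ Metric.ball z ρ, g i y ≠ 0 := by
    obtain ⟨y, h1, h2⟩ := (hne.and_eventually (Metric.ball_mem_nhds z hρ)).exists
    exact ⟨y, h2, h1⟩
  have h5 := Vale.Agent.P285.H16.null_zero (f := g i) Metric.isOpen_ball (convex_ball z ρ)
    (fun y hy => (hball y hy).1) hne2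
  refine ⟨Metric.ball z ρ ∩ {z | z ∈ e.target ∧ r i (e.symm z) = 0}, ?_,
    measure_mono_null ?_ h5⟩
  · exact inter_mem (mem_nhdsWithin_of_mem_nhds (Metric.ball_mem_nhds z hρ)) self_mem_nhdsWithin
  · rintro y ⟨hy1, hy2, hy3⟩
    refine ⟨hy1, ?_⟩
    rw [((hball y hy1).2 i).1] at hy3
    exact norm_eq_zero.1 (pow_eq_zero_iff two_ne_zero |>.1
      ((mul_eq_zero.1 hy3).resolve_right (Real.exp_pos _).ne'))

variable [T2Space X] [CompactSpace X] [ConnectedSpace X] [IsManifold 𝓘(ℂ, Cm n) ω X]

/-- the divisor `Dv i` has nonnegative degree -/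
theorem mixX_R_nonneg {χ : D.FormM n X} (hχ : IsKahler χ) (h : IsBd Dv r R) (i : Fin M)
    {A : D.FormM n X} (hA : IsClosedForm A) (hA0 : ∀ e x, At e x → (A e (e x)).PosSemidef) :
    0 ≤ mixX A (R i) := by
  obtain ⟨-, ⟨C, hC, hb⟩, -⟩ := H455.KD.bdPart n M X χ hχ Dv r R h
  refine H776.KL.mix_nonneg hχ (h.closed i) 1 (bd_smooth h i) (bd_nonneg h i) (bd_null h i) C ?_
    hA hA0
  intro δ hδ e x hx
  obtain ⟨g, ψ, h1, h2, h3⟩ := bd_loc h i hx
  have h4 := pt_a (hb i e x hx).2.1 (psd_vec _) (bd_nonneg h i x) hδ (dF_eq hx h1 h2 h3 hδ)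
  have h5 : R i e (e x) + ((((1 : ℕ) : ℝ)⁻¹ : ℝ) : ℂ) •
      hess (fun y => Real.log (r i y + δ)) e (e x) = dF (r i) (R i) δ e (e x) := by
    rw [Nat.cast_one, inv_one, Complex.ofReal_one, one_smul, add_comm]
    rfl
  rw [h5]
  exact h4

omit [ConnectedSpace X] in
theorem mixX_comb {A B B' : D.FormM n X} (hA : IsClosedForm A) (hB : IsClosedForm B)
    (hB' : IsClosedForm B') {B'' : D.FormM n X} {a : ℝ}
    (h : ∀ e x, At e x → B'' e (e x) = B e (e x) + (a : ℂ) • B' e (e x)) :
    mixX A B'' = mixX A B + a * mixX A B' := by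
  have h1 : mixX A B'' = INT.intX fun (e : Chart n X) z => mixD (A e z) (B e z) +
      a * mixD (A e z) (B' e z) := by
    refine INT.intX_congr fun e x hx => ?_
    show mixD (A e (e x)) (B'' e (e x)) = _
    rw [h e x hx, mixD_add, mixD_smul]
  rw [h1, INT.intX_add (isDensity_mixD hA.form hB.form hA.smooth hB.smooth)
    ((isDensity_mixD hA.form hB'.form hA.smooth hB'.smooth).const_mul a), INT.intX_const_mul]
  rfl

omit [T2Space X] [CompactSpace X] [ConnectedSpace X] in
lemma closed_fsum (c : Fin M → ℂ) {B : D.FormM n X} (hB : IsClosedForm B)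
    (hR : ∀ i, IsClosedForm (R i)) (s : Finset (Fin M)) :
    IsClosedForm fun e z => B e z + ∑ i ∈ s, c i • R i e z := by
  classical
  induction s using Finset.induction_on with
  | empty =>
    simp only [Finset.sum_empty, add_zero]
    exact hB
  | insert a s ha ih =>
    simp only [Finset.sum_insert ha]
    have h1 : (fun e z => B e z + (c a • R a e z + ∑ i ∈ s, c i • R i e z)) =
        fun e z => (B e z + ∑ i ∈ s, c i • R i e z) + c a • R a e z := by
      funext e z
      abel
    rw [h1]
    exact ih.add ((hR a).smul (c a))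

/-- **Row E.** -/
theorem effPart : Vale.Agent.P281.H167.ML.EffPart := by
  classical
  intro n M X _ _ _ _ _ _ χ hχ Dv r R hB φ hφ dl dl' hdl A hA hA0
  have key : ∀ s : Finset (Fin M), mixX A (clsK φ dl R) ≤
      mixX A (clsK φ (fun i => if i ∈ s then dl' i else dl i) R) := by
    intro s
    induction s using Finset.induction_on with
    | empty => simp
    | insert a s ha ih =>
      refine ih.trans ?_
      have hcl : IsClosedForm (clsK φ (fun i => if i ∈ s then dl' i else dl i) R) :=
        closed_fsum (fun i => (((if i ∈ s then dl' i else dl i) : ℝ) : ℂ))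
          (INT.isClosedForm_canonical hφ) hB.closed Finset.univ
      have h1 := mixX_comb hA hcl (hB.closed a)
        (B'' := clsK φ (fun i => if i ∈ insert a s then dl' i else dl i) R) (a := dl' a - dl a)
        (fun e x _ => by
          simp only [clsK]
          rw [add_assoc]
          congr 1
          rw [← Finset.add_sum_erase _ _ (Finset.mem_univ a),
            ← Finset.add_sum_erase _ _ (Finset.mem_univ a)]
          have h2 : ∑ i ∈ Finset.univ.erase a,
              (((if i ∈ insert a s then dl' i else dl i) : ℝ) : ℂ) • R i e (e x) =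
              ∑ i ∈ Finset.univ.erase a,
              (((if i ∈ s then dl' i else dl i) : ℝ) : ℂ) • R i e (e x) := by
            refine Finset.sum_congr rfl fun i hi => ?_
            have h3 : i ≠ a := Finset.ne_of_mem_erase hi
            simp [Finset.mem_insert, h3]
          rw [h2]
          simp only [Finset.mem_insert, true_or, if_true, ha, if_false]
          push_cast
          rw [sub_smul]
          abel)
      rw [h1]
      have h4 := mul_nonneg (sub_nonneg.2 (hdl a)) (mixX_R_nonneg hχ hB a hA hA0)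
      linarith
  have h := key Finset.univ
  simpa using h

end Vale.Agent.P281.H413.ML
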